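import Vale.Agent.P011UQ.IF
import Vale.Agent.P011LQ.Three
import Vale.Agent.P011.H271.ConF2
import Vale.Agent.P011.H279.SqrtA

/-!
Local quaternion division algebras contain the roots of `X ^ 2 + X + a`.
-/

set_option autoImplicit false
set_option linter.all false

namespace Vale.Agent.P011UQ4

open Module Polynomial Vale.Agent.P011 Vale.Agent.P011.W Vale.Agent.P011.Even.LocDiv
  Vale.Agent.P011LQ Vale.Agent.P011UQ

/-- The quadratic polynomial. -/
noncomputable def cq {R : Type} [CommRing R] (a : R) : R[X] := X ^ 2 + X + C a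

section

variable {R S : Type} [CommRing R] [CommRing S]

theorem cq_map (f : R →+* S) (a : R) : (cq a).map f = cq (f a) := by simp [cq]

theorem cq_eval (a x : R) : (cq a).eval x = x ^ 2 + x + a := by simp [cq]

theorem cq_der (a x : R) : (cq a).derivative.eval x = 2 * x + 1 := by
  simp [cq]; ring

theorem cq_monic [Nontrivial R] (a : R) : (cq a).Monic := by unfold cq; monicity!

theorem cq_deg [Nontrivial R] (a : R) : (cq a).natDegree = 2 := by unfold cq; compute_degree!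

end

theorem cq_irr {R : Type} [Field R] {a : R} (h : ∀ x, x ^ 2 + x + a ≠ 0) : Irreducible (cq a) :=
  ((cq_monic a).irreducible_iff_roots_eq_zero_of_degree_le_three (by simp [cq_deg])
    (by simp [cq_deg])).2 (Multiset.eq_zero_of_forall_notMem fun x hx =>
      h x ((cq_eval a x).symm.trans ((mem_roots (cq_monic a).ne_zero).1 hx)))

theorem cq_aeval {R S : Type} [CommRing R] [Ring S] [Algebra R S] (a : R) (y : S) :
    aeval y (cq a) = y ^ 2 + y + algebraMap R S a := by simp [cq]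

theorem cq_min {R S : Type} [Field R] [Ring S] [IsDomain S] [Algebra R S] {a : R}
    (h : ∀ x, x ^ 2 + x + a ≠ 0) {y : S} (hy : y ^ 2 + y + algebraMap R S a = 0) :
    minpoly R y = cq a :=
  (minpoly.eq_of_irreducible_of_monic (cq_irr h) ((cq_aeval a y).trans hy) (cq_monic a)).symm

section

variable {W : Type} [NormedField W] [IsUltrametricDist W]

theorem norm_sq_add {x : W} (h : 1 < ‖x‖) : ‖x ^ 2 + x‖ = ‖x‖ ^ 2 := by
  have h1 : ‖x‖ < ‖x ^ 2‖ := by rw [norm_pow]; nlinarith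
  rw [IsUltrametricDist.norm_add_eq_max_of_norm_ne_norm h1.ne', max_eq_left h1.le, norm_pow]

theorem norm_sq_le {x : W} (h : ‖x‖ ≤ 1) : ‖x ^ 2 + x‖ ≤ 1 :=
  (IsUltrametricDist.norm_add_le_max _ _).trans
    (max_le (by rw [norm_pow]; exact pow_le_one₀ (norm_nonneg _) h) h)

/-- There is no root in the ground field. -/
theorem no_root {a : W} (h : Lt a) (x : W) : x ^ 2 + x + a ≠ 0 := fun e => by
  have e1 : ‖x ^ 2 + x‖ = ‖a‖ := by rw [eq_neg_of_add_eq_zero_left e, norm_neg]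
  rcases h with ⟨h1, h2⟩ | ⟨h1, h2⟩ <;> rcases le_or_gt ‖x‖ 1 with hx | hx
  · linarith [norm_sq_le hx]
  · exact h2 x ((norm_sq_add hx).symm.trans e1)
  · exact h2 x hx (by simp [e])
  · have := norm_sq_add hx
    nlinarith

theorem cq_close {a x z : W} (hx : ‖x‖ ≤ 1) (h : ‖x - z‖ < 1) (h0 : ‖x ^ 2 + x + a‖ < 1) :
    ‖z‖ ≤ 1 ∧ ‖z ^ 2 + z + a‖ < 1 := by
  have hz : ‖z‖ ≤ 1 := by
    simpa [mem_ringO] using
      (ringO W).sub_mem (show x ∈ ringO W from hx) (show x - z ∈ ringO W from h.le)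
  refine ⟨hz, ?_⟩
  have h1 : ‖x + z + 1‖ ≤ 1 := (ringO W).add_mem ((ringO W).add_mem hx hz) (ringO W).one_mem
  rw [show z ^ 2 + z + a = x ^ 2 + x + a + -((x - z) * (x + z + 1)) by ring]
  refine (IsUltrametricDist.norm_add_le_max _ _).trans_lt (max_lt h0 ?_)
  rw [norm_neg, norm_mul]
  exact mul_lt_one_of_nonneg_of_lt_one_left (norm_nonneg _) h h1

/-- A root in the unramified quadratic extension. -/
theorem root2 [ProperSpace W] (σ : W →+* W) (h1 : ∀ x, ‖σ x‖ = ‖x‖) (h3 : ∀ x, σ (σ x) = x)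
    (hne : ∃ x, ‖x‖ ≤ 1 ∧ ¬‖σ x - x‖ < 1) {u : W} (hu : ‖u‖ ≤ 1) (hσ : σ u = u)
    (hno : ∀ x, ‖x‖ ≤ 1 → ‖σ x - x‖ < 1 → ¬‖x ^ 2 + x + u‖ < 1) : ∃ y, y ^ 2 + y + u = 0 := by
  let _ : Field (Res W) := Field.ofIsUnitOrEqZero (res_isUnit_or W)
  let s : ringO W →+* ringO W := σ.restrict _ _ fun x hx => (h1 x).trans_le hx
  let f : Res W →+* Res W := Ideal.quotientMap _ s fun x hx => (h1 x.1).trans_lt hx
  let mk := Ideal.Quotient.mk (idealM W)
  have f3 : ∀ x, f (f x) = x := fun x => by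
    obtain ⟨x, rfl⟩ := Ideal.Quotient.mk_surjective x
    exact congrArg mk (Subtype.ext (h3 x.1))
  let φ : Res W ≃+* Res W := RingEquiv.ofRingHom f f (RingHom.ext f3) (RingHom.ext f3)
  have : Finite (Res W ≃+* Res W) := Finite.of_injective _ DFunLike.coe_injective
  have := Fintype.ofFinite (Subgroup.zpowers φ)
  have o3 : orderOf φ = 2 := orderOf_eq_prime (RingEquiv.ext f3) fun e => by
    obtain ⟨x, hx, h⟩ := hne
    exact h (Ideal.Quotient.eq.1 (DFunLike.congr_fun e (mk ⟨x, hx⟩)))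
  let κ := FixedPoints.subfield (Subgroup.zpowers φ) (Res W)
  have r3 : finrank κ (Res W) = 2 := by
    rw [FixedPoints.finrank_eq_card, Fintype.card_eq_nat_card, Nat.card_zpowers, o3]
  let ū : κ := ⟨mk ⟨u, hu⟩, fun g => (Subgroup.zpowers_le (g := φ)
    (H := MulAction.stabilizer _ (mk ⟨u, hu⟩))).2 (congrArg mk (Subtype.ext hσ)) g.2⟩
  have a : ∀ y : ringO W, mk y ^ 2 + mk y + mk ⟨u, hu⟩ = 0 ↔ ‖y.1 ^ 2 + y.1 + u‖ < 1 :=
    fun y => by
      rw [← map_pow, ← map_add, ← map_add, Ideal.Quotient.eq_zero_iff_mem, mem_idealM]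
      rfl
  have n0 : ∀ x : κ, x ^ 2 + x + ū ≠ 0 := fun x e => by
    obtain ⟨y, hy⟩ := Ideal.Quotient.mk_surjective x.1
    have a1 := x.2 ⟨φ, Subgroup.mem_zpowers φ⟩
    rw [← hy] at a1
    refine hno y.1 y.2 (Ideal.Quotient.eq.1 a1) ((a y).1 ?_)
    rw [show mk y = x.1 from hy]
    exact congrArg Subtype.val e
  have : Fact (Irreducible (cq ū)) := ⟨cq_irr n0⟩
  obtain ⟨ψ⟩ := FiniteField.nonempty_algHom_of_finrank_dvd (F := κ) (K := AdjoinRoot (cq ū))
    (L := Res W) (by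
      rw [(AdjoinRoot.powerBasis (cq_monic ū).ne_zero).finrank, AdjoinRoot.powerBasis_dim, cq_deg,
        r3])
  obtain ⟨z, hz⟩ := Ideal.Quotient.mk_surjective (ψ (AdjoinRoot.root _))
  have z1 : aeval (mk z) (cq ū) = 0 := by
    rw [hz, aeval_algHom_apply, AdjoinRoot.aeval_eq, AdjoinRoot.mk_self, map_zero]
  have z2 := (PerfectField.separable_of_irreducible (cq_irr n0)).aeval_derivative_ne_zero z1
  rw [aeval_def, ← eval_map, ← derivative_map, cq_map, cq_der] at z2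
  rw [cq_aeval] at z1
  have z3 : ‖2 * z.1 + 1‖ = 1 := by
    refine le_antisymm (2 * z + 1 : ringO W).2 (not_lt.1 fun h => z2 ?_)
    have e : mk (2 * z + 1) = 0 := Ideal.Quotient.eq_zero_iff_mem.2 h
    rwa [map_add, map_mul, map_ofNat, map_one] at e
  obtain ⟨y, hy⟩ := H271.ConF.hensel_norm (cq u) (fun i => by
    rw [show cq u = _ from (cq_map (ringO W).subtype ⟨u, hu⟩).symm, coeff_map]
    exact ((cq (⟨u, hu⟩ : ringO W)).coeff i).2) z.1 z.2 (by
      rw [cq_der, z3, one_pow, cq_eval]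
      exact (a z).1 z1)
  exact ⟨y, (cq_eval u y).symm.trans hy⟩

end

section

variable {R E : Type} [NontriviallyNormedField R] [IsUltrametricDist R] [ProperSpace R]
  [NormedDivisionRing E] [NormedAlgebra R E] [IsUltrametricDist E] [FiniteDimensional R E]
  {F : Frame E} {W : Type} [iW : Field W] [Algebra R W] [FiniteDimensional R W]
  (C : Cyc R E W F)

/-- The unramified case. -/
theorem unr (m2 : C.m = 2) {u : R} (hu : ‖u‖ ≤ 1)
    (hno : ∀ x, ‖x‖ ≤ 1 → ¬‖x ^ 2 + x + u‖ < 1) : ∃ y : W, y ^ 2 + y + algebraMap R W u = 0 := by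
  let _ : NormedField W := { iW, NormedDivisionRing.induced W E C.ι C.inj with }
  have hn : ∀ w : W, ‖w‖ = ‖C.ι w‖ := fun _ => rfl
  let _ : NormedAlgebra R W :=
    { (inferInstance : Algebra R W) with
      norm_smul_le := fun c x => by rw [hn, hn, map_smul, norm_smul] }
  have : IsUltrametricDist W := IsUltrametricDist.isUltrametricDist_of_forall_norm_add_le_max_norm
    fun x y => by rw [hn, hn, hn, map_add]; exact IsUltrametricDist.norm_add_le_max _ _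
  have : ProperSpace W := FiniteDimensional.proper R W
  refine root2 (C.σ : W →+* W) (C.norm_σ 1) (by simpa [m2] using C.σ_m)
    ⟨C.ω, by simpa [hn] using (C.norm_ω 1).le, by
      have := C.norm_ζ_sub (a := 1) (b := 0) one_ne_zero (by omega) C.m0
      rw [← C.hω, ← map_pow, ← map_pow, ← C.σ_ω, ← C.σ_ω, ← map_sub] at this
      exact this.not_lt⟩ (u := algebraMap R W u) (by rwa [norm_algebraMap']) (C.σ.commutes u)
    fun x hx h1 h2 => ?_
  obtain ⟨c, hc⟩ : ∃ c : R, ‖x - algebraMap R W c‖ < 1 := by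
    rcases hx.eq_or_lt with e | e
    · obtain ⟨a, ha⟩ := F.gen (C.ι x) e
      rw [← C.hω, ← map_pow, ← map_sub] at ha
      have a1 : ‖C.ι (C.σ x - C.σ (C.ω ^ a))‖ < 1 := by
        rw [← map_sub]; exact (C.norm_σ 1 _).trans_lt ha
      have a2 : C.σ (C.ω ^ a) = C.ω ^ (a * F.j ^ 1) := C.σ_ωl 1 a
      have a3 : F.ζ ^ (a * F.j ^ 1) = F.ζ ^ a := F.pow_inj (by
        rw [← C.hω, ← map_pow, ← map_pow, ← a2]
        rw [map_sub] at a1 ha
        exact norm_sub_lt_trans (norm_sub_lt_trans (by rwa [norm_sub_rev])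
          (by rw [← map_sub]; exact h1)) ha)
      obtain ⟨c, hc⟩ := C.exists_base (w := C.ω ^ a)
        (a2.trans (C.inj (by rw [map_pow, map_pow, C.hω, a3])))
      exact ⟨c, hc ▸ ha⟩
    · exact ⟨0, by simpa using e⟩
  obtain ⟨c1, c2⟩ := cq_close hx hc h2
  rw [← map_pow, ← map_add, ← map_add, norm_algebraMap'] at c2
  exact hno c (by rwa [norm_algebraMap'] at c1) c2

/-- The ramified case. -/
theorem ram [Algebra.IsCentral R E] (m2 : C.m = 2) {a : R} (ha : 1 < ‖a‖) (hno : ∀ y : R, ‖y‖ ^ 2 ≠ ‖a‖) :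
    ∃ x : E, x ^ 2 + x + algebraMap R E a = 0 := by
  have : ProperSpace E := FiniteDimensional.proper R E
  obtain ⟨ϖ, hϖ⟩ := C.exists_ϖ
  rw [m2] at hϖ
  have hϖn : ‖ϖ‖ = ‖F.π‖ ^ 2 := by rw [← norm_algebraMap' E ϖ, hϖ, norm_pow]
  have hϖp : 0 < ‖ϖ‖ := by rw [hϖn]; exact pow_pos F.πpos _
  have hϖ0 : ϖ ≠ 0 := norm_pos_iff.1 hϖp
  obtain ⟨l, τ, hτ, hτ1⟩ := C.exists_trace
  have hτ0 : τ ≠ 0 := norm_pos_iff.1 (by rw [hτ1]; exact one_pos)
  have hN : ∀ w, C.N w = w * C.σ w := fun w => by simp [Cyc.N, m2, Finset.prod_range_succ]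
  obtain ⟨u, u1, u2⟩ : ∃ u : W, u + C.σ u + 1 = 0 ∧ ‖C.ι u‖ = 1 := by
    refine ⟨algebraMap R W (-τ⁻¹) * C.ω ^ l, ?_, ?_⟩
    · have e : algebraMap R W τ = C.ω ^ l + C.σ (C.ω ^ l) := by
        rw [hτ]; simp [Cyc.T, m2, Finset.sum_range_succ]
      rw [map_mul, C.σ.commutes, ← mul_add, ← e, ← map_mul, neg_mul, inv_mul_cancel₀ hτ0, map_neg,
        map_one, neg_add_cancel]
    · rw [map_mul, norm_mul, C.norm_alg, C.norm_ω, norm_neg, norm_inv, hτ1]; simp
  obtain ⟨n, hn⟩ := C.exists_base (C.σ_N u)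
  have n1 : ‖n‖ = 1 := by rw [← C.norm_alg, hn, C.norm_N, u2, one_pow]
  have n2 : ‖n - a‖ = ‖a‖ := by
    rw [sub_eq_add_neg, IsUltrametricDist.norm_add_eq_max_of_norm_ne_norm
      (by rw [n1, norm_neg]; exact ha.ne), norm_neg, max_eq_right (n1.trans_le ha.le)]
  have a0 : a ≠ 0 := norm_pos_iff.1 (one_pos.trans ha)
  obtain ⟨i, hi⟩ := norm_eq_zpow F.π0 F.π1 F.πm (x := algebraMap R E a)
    ((_root_.map_ne_zero _).mpr a0)
  rw [norm_algebraMap'] at hi
  obtain ⟨t, ht⟩ := C.dvd_of_norm' hi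
  have hat : ‖a‖ = ‖ϖ‖ ^ t := by rw [hi, ht, hϖn, m2, zpow_mul, zpow_natCast]
  obtain ⟨s, rfl⟩ : Odd t := Int.not_even_iff_odd.1 fun ⟨s, e⟩ => hno (ϖ ^ s) (by
    rw [hat, e, norm_zpow, zpow_add₀ hϖp.ne', pow_two])
  have s0 : ϖ ^ s ≠ 0 := zpow_ne_zero _ hϖ0
  have hb : ‖(ϖ ^ s) ^ 2 * ϖ‖ = ‖a‖ := by
    rw [hat, zpow_add_one₀ hϖp.ne', norm_mul, norm_pow, norm_zpow, mul_comm 2, zpow_mul]
    rfl
  have b0 : (ϖ ^ s) ^ 2 * ϖ ≠ 0 := mul_ne_zero (pow_ne_zero _ s0) hϖ0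
  let G : E → E := fun x => (C.ι u + algebraMap R E (ϖ ^ s) * (x * F.π)) ^ 2 +
    (C.ι u + algebraMap R E (ϖ ^ s) * (x * F.π))
  have hG : Continuous G := by fun_prop
  have key : ∀ (w : W) (c : R), algebraMap R W c = C.N w →
      G (C.ι w) = algebraMap R E ((ϖ ^ s) ^ 2 * ϖ * c - n) := fun w c hc => by
    have e1 : (C.ι w * F.π) ^ 2 = algebraMap R E (ϖ * c) := by
      rw [H279.Sq.mul_pow_pi, ← hϖ, mul_comm ϖ, map_mul, ← C.ι.commutes c, hc, Cyc.N, m2]
    have e2 : C.ι u ^ 2 + C.ι u = -algebraMap R E n := by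
      rw [← C.ι.commutes, hn, hN, ← map_pow, ← map_add, ← map_neg]
      exact congrArg _ (by linear_combination u * u1)
    have e3 : C.ι u * (C.ι w * F.π) + C.ι w * F.π * C.ι u + C.ι w * F.π = 0 := by
      rw [mul_assoc (C.ι w), C.hσ, ← mul_assoc, ← mul_assoc, ← add_mul, ← add_mul, ← map_mul,
        ← map_mul, ← map_add, ← map_add, show u * w + w * C.σ u + w = 0 by
          linear_combination w * u1, map_zero, zero_mul]
    have e4 : G (C.ι w) = C.ι u ^ 2 + C.ι u + (ϖ ^ s) • (C.ι u * (C.ι w * F.π) +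
        C.ι w * F.π * C.ι u + C.ι w * F.π) + (ϖ ^ s) ^ 2 • (C.ι w * F.π) ^ 2 := by
      simp only [G, ← Algebra.smul_def, pow_two, add_mul, mul_add, smul_add, smul_mul_assoc,
        mul_smul_comm, smul_smul]
      abel
    rw [e4, e1, e2, e3, smul_zero, add_zero, Algebra.smul_def, ← map_mul, ← map_neg, ← map_add]
    exact congrArg _ (by ring)
  have hc : IsCompact (G '' Metric.sphere (0 : E) 1) := (isCompact_sphere (0 : E) 1).image hG
  have hm : algebraMap R E (-a) ∈ closure (G '' Metric.sphere (0 : E) 1) := by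
    rw [Metric.mem_closure_iff]
    intro ε hε
    have ap : 0 < ‖a‖ := one_pos.trans ha
    obtain ⟨j, hj⟩ := exists_pow_lt_of_lt_one (y := ‖F.π‖) (div_pos hε ap) F.π1
    obtain ⟨w, c, hw, h1, h2⟩ := C.unit_approx j ((n - a) / ((ϖ ^ s) ^ 2 * ϖ))
      (by rw [norm_div, hb, n2, div_self ap.ne'])
    refine ⟨G (C.ι w), ⟨C.ι w, by rw [mem_sphere_zero_iff_norm, hw], rfl⟩, ?_⟩
    rw [key w c h1, dist_comm, dist_eq_norm, ← map_sub, norm_algebraMap',
      show (ϖ ^ s) ^ 2 * ϖ * c - n - -a =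
        (ϖ ^ s) ^ 2 * ϖ * (c - (n - a) / ((ϖ ^ s) ^ 2 * ϖ)) by
          rw [mul_sub, mul_div_cancel₀ _ b0]; ring, norm_mul, hb, mul_comm, ← lt_div_iff₀ ap]
    exact (h2.trans (pow_le_pow_of_le_one (norm_nonneg _) F.π1.le (by omega))).trans_lt hj
  rw [hc.isClosed.closure_eq] at hm
  obtain ⟨x, -, hx⟩ := hm
  exact ⟨_, (congrArg (· + algebraMap R E a) hx).trans (by simp)⟩

end

/-- A root in the algebra. -/
theorem ex_root {R E : Type} [NontriviallyNormedField R] [IsUltrametricDist R] [ProperSpace R]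
    [i : DivisionRing E] [j : Algebra R E] [FiniteDimensional R E] [Algebra.IsCentral R E]
    (hq : finrank R E = 2 ^ 2) {a : R} (h : Lt a) : ∃ x : E, x ^ 2 + x + algebraMap R E a = 0 := by
  obtain ⟨i', j', rfl, hj, _, ⟨F⟩⟩ := local_ind (k := R) (E := E)
  obtain rfl := eq_of_heq hj
  obtain ⟨W, iW, _, _, ⟨C⟩⟩ := exists_cyc (k := R) F
  have m2 : C.m = 2 := H279.Sq.m_eq C hq
  rcases h with ⟨h1, h2⟩ | ⟨h1, h2⟩
  · exact ram C m2 h1 h2
  · obtain ⟨y, hy⟩ := unr C m2 h1 h2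
    exact ⟨C.ι y, by rw [← map_pow, ← C.ι.commutes, ← map_add, ← map_add, hy, map_zero]⟩

/-- **LQ2.** -/
theorem lq2 : LQ2 := fun R E _ _ _ _ _ _ _ hq a h R' _ φ θ hθ => by
  obtain ⟨x, hx⟩ := ex_root hq h
  have hm := cq_min (no_root h) hx
  exact spl_of_eval two_pos hq (x := x) (by rw [hm, cq_deg]) φ (r := θ)
    (by rw [hm, ← eval_map, cq_map, cq_eval, hθ])

end Vale.Agent.P011UQ4
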